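import Vale.Agent.P011UP.Lev

/-!
The highest root and its neighbour: the Heisenberg parabolic subgroup is stable.
-/

set_option autoImplicit false
set_option linter.all false

namespace Vale.Agent.P011UF9

open Matrix Subgroup Vale.Agent.P011L Vale.Agent.P183CH Vale.Agent.P183CH.RG Vale.Agent.P011U
  Vale.Agent.P011UP Vale.Agent.P011LD

/-- `θ` is the highest root, it is the fundamental weight of the node `c` -/
structure Hd (R : RS) (θ : R.Q) (c j : Fin R.r) : Prop where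
  mem : θ ∈ R.Φ
  pr : ∀ i, R.pr θ i = if i = c then 1 else 0
  nn : 0 ≤ θ - R.α c
  top : ∀ γ ∈ R.Φ, θ - R.α c ≤ γ → γ = θ ∨ γ = θ - R.α c
  adj : R.A c j = -1

section

variable {R : RS} {K G : Type} [Field K] [Group G] {Γ : RG R K G} {θ γ : R.Q} {c j : Fin R.r}
  {J : Set (Fin R.r)} {g u n : G} {w : R.Aut}

variable (Γ θ c) in
/-- the coordinates on the two highest root groups -/
def ev (v : K × K) : G := Γ.x θ v.1 * Γ.x (θ - R.α c) v.2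

variable (Γ θ c) in
/-- `g` acts linearly -/
def Lin (g : G) : Prop :=
  ∃ M : K × K →ₗ[K] K × K, ∀ v, g * ev Γ θ c v * g⁻¹ = ev Γ θ c (M v)

theorem Lin.mul {g' : G} (h : Lin Γ θ c g) (h' : Lin Γ θ c g') : Lin Γ θ c (g * g') :=
  let ⟨M, e⟩ := h
  let ⟨M', e'⟩ := h'
  ⟨M ∘ₗ M', fun v => by rw [LinearMap.comp_apply, ← e, ← e']; group⟩

theorem conj_ev (g : G) (v : K × K) : g * ev Γ θ c v * g⁻¹ =
    g * Γ.x θ v.1 * g⁻¹ * (g * Γ.x (θ - R.α c) v.2 * g⁻¹) := by rw [ev]; group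

variable (d : Hd R θ c j) (hR : R.Ok)
include d hR

theorem Hd.s1 : R.sE c θ = θ - R.α c := by rw [hR.sE_eq, d.pr, if_pos rfl, one_smul]

theorem Hd.s2 : R.sE c (θ - R.α c) = θ := by rw [← d.s1 hR, hR.sE_sE]

theorem Hd.mem' : θ - R.α c ∈ R.Φ := d.s1 hR ▸ hR.map_mem (RS.sE_mem_W c) d.mem

omit hR in
theorem Hd.le : θ - R.α c ≤ θ := sub_le_self _ (RS.α_nonneg c)

omit hR in
theorem Hd.nn' : 0 ≤ θ := d.nn.trans d.le

theorem Hd.ne : θ ≠ θ - R.α c := fun e =>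
  (hR.sign _ (hR.simple c)).1 (sub_eq_self.1 e.symm)

omit d hR in
theorem pr_sub (i : Fin R.r) : R.pr (θ - R.α c) i = R.pr θ i - R.A c i := by
  rw [sub_eq_add_neg, RS.pr_add, RS.pr_neg, RS.pr_α, sub_eq_add_neg]

theorem Hd.fix (hw : w ∈ R.W) (h : w θ = θ) : w ∈ R.WJ {i | i ≠ c} :=
  hR.mem_WJ_of_Inv hw fun γ m => ⟨m.1, m.2.1, fun i hi => by
    obtain rfl : i = c := not_not.1 hi
    have p := hR.pr_B θ
    have q := hR.B_α_pos i
    have k : ∀ γ, 2 * R.B γ θ = γ i * R.B (R.α i) (R.α i) := fun γ => by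
      rw [hR.B_sum, Finset.mul_sum, Finset.sum_eq_single i (fun a _ e => ?_) (by simp)]
      · have := p i
        rw [d.pr, if_pos rfl, hR.B_comm θ] at this
        linear_combination -γ i * this
      · have := p a
        rw [d.pr, if_neg e, hR.B_comm θ] at this
        linear_combination -γ a * this
    have k1 := k γ
    have k2 := k (w γ)
    rw [← hR.B_inv hw, h, k2] at k1
    have a1 : 0 ≤ γ i := m.2.1 i
    have a2 : w γ i ≤ 0 := m.2.2 i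
    have := mul_right_cancel₀ q.ne' k1
    omega⟩

variable (hΓ : Γ.Ok)
include hΓ

theorem cen (hu : u ∈ Γ.U) (a : K) : u * Γ.x θ a * u⁻¹ = Γ.x θ a := by
  refine hΓ.X_ind (P := fun u => u * Γ.x θ a * u⁻¹ = Γ.x θ a) (by simp) (fun γ h1 h2 t => ?_)
    (fun p _ q _ e e' => by
      rw [show p * q * Γ.x θ a * (p * q)⁻¹ = p * (q * Γ.x θ a * q⁻¹) * p⁻¹ by group, e', e]) hu
  refine mul_inv_eq_one.1 (mem_bot.1 ((X_le ?_ : _ ≤ ⊥) (hΓ.comm γ h2 θ d.mem h1 d.nn' t a)))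
  rintro _ ⟨p, q, hp, hq, rfl⟩ m
  have k : ∀ i, (p : ℤ) * γ i + q * θ i ≤ θ i := by
    refine (d.top _ m fun i => ?_).elim (fun e i => (congrFun e i).le)
      fun e i => (congrFun e i).le.trans (d.le i)
    have : 0 ≤ γ i := h1 i
    have : 0 ≤ θ i := d.nn' i
    refine (d.le i).trans (show θ i ≤ (p : ℤ) * γ i + q * θ i by nlinarith)
  refine (hR.not_both h2 h1 fun i => ?_).elim
  have := k i
  have : 0 ≤ θ i := d.nn' i
  show γ i ≤ 0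
  nlinarith

theorem com (hγ : γ ∈ R.Φ) (h : 0 ≤ γ) (t b : K) : ∃ f, Γ.x γ t * Γ.x (θ - R.α c) b * (Γ.x γ t)⁻¹ =
    Γ.x θ f * Γ.x (θ - R.α c) b ∧ (γ ≠ R.α c → f = 0) := by
  have m := hΓ.comm γ hγ _ (d.mem' hR) h d.nn t b
  have k : Γ.X {ε | ∃ p q : ℕ, 0 < p ∧ 0 < q ∧ ε = p • γ + q • (θ - R.α c)} ≤
      Γ.X {ε | ε = θ ∧ γ = R.α c} := X_mono (by
    rintro _ ⟨p, q, hp, hq, rfl⟩ m
    have n0 : ∀ i, 0 ≤ γ i ∧ 0 ≤ (θ - R.α c) i := fun i => ⟨h i, d.nn i⟩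
    rcases d.top _ m fun i => show (θ - R.α c) i ≤ (p : ℤ) * γ i + q * (θ - R.α c) i by
      have := n0 i
      nlinarith with e | e
    · refine ⟨e, (hR.eq_of_coord hγ fun i hi => ?_).resolve_right fun e' =>
        hR.not_both hγ h (e' ▸ neg_nonpos.2 (RS.α_nonneg c))⟩
      have e1 : (p : ℤ) * γ i + q * (θ - R.α c) i = θ i := congrFun e i
      have e2 : (θ - R.α c) i = θ i := by rw [Pi.sub_apply, RS.α_ne hi, sub_zero]
      have := n0 i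
      nlinarith
    · refine (hR.not_both hγ h fun i => ?_).elim
      have e1 : (p : ℤ) * γ i + q * (θ - R.α c) i = (θ - R.α c) i := congrFun e i
      have := n0 i
      show γ i ≤ 0
      nlinarith)
  by_cases e : γ = R.α c
  · obtain ⟨f, hf⟩ := hΓ.mem_X_single d.mem (fun _ m => m.1) (k m)
    exact ⟨f, mul_inv_eq_iff_eq_mul.1 hf, fun e' => absurd e e'⟩
  · refine ⟨0, ?_, fun _ => rfl⟩
    rw [hΓ.x_zero d.mem, one_mul]
    exact mul_inv_eq_one.1 (mem_bot.1 ((X_le fun _ m => absurd m.2 e : _ ≤ ⊥) (k m)))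

theorem xU (b : K) : Γ.x (θ - R.α c) b ∈ Γ.U := x_mem (S := {γ | 0 ≤ γ}) (d.mem' hR) d.nn b

theorem swap (a b : K) : Γ.x (θ - R.α c) b * Γ.x θ a = Γ.x θ a * Γ.x (θ - R.α c) b :=
  mul_inv_eq_iff_eq_mul.1 (cen d hR hΓ (xU d hR hΓ b) a)

theorem ev_add (v v' : K × K) : ev Γ θ c (v + v') = ev Γ θ c v * ev Γ θ c v' := by
  rw [ev, ev, ev, Prod.fst_add, Prod.snd_add, hΓ.add _ d.mem, hΓ.add _ (d.mem' hR), mul_assoc,
    mul_assoc, ← mul_assoc (Γ.x θ v'.1), ← swap d hR hΓ, mul_assoc]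

theorem ev_inj : Function.Injective (ev Γ θ c) := fun v v' h => by
  have e : ev Γ θ c (v - v') = 1 := by
    rw [← mul_left_inj (ev Γ θ c v'), ← ev_add d hR hΓ, sub_add_cancel, h, one_mul]
  have := hΓ.uniq [(θ, (v - v').1), (θ - R.α c, (v - v').2)] (by simpa using d.ne hR)
    (by simp only [List.mem_cons, List.not_mem_nil, or_false]
        rintro _ (rfl | rfl)
        exacts [⟨d.mem, d.nn'⟩, ⟨d.mem' hR, d.nn⟩]) (by simpa [ev] using e)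
  exact sub_eq_zero.1 (Prod.ext (this _ List.mem_cons_self)
    (this _ (List.mem_cons_of_mem _ List.mem_cons_self)))

theorem fx : ∃ f : K, f ≠ 0 ∧ ∀ t b, Γ.x (R.α c) t * Γ.x (θ - R.α c) b * (Γ.x (R.α c) t)⁻¹ =
    Γ.x θ (t * b * f) * Γ.x (θ - R.α c) b := by
  obtain ⟨f, hf, -⟩ := com d hR hΓ (hR.simple c) (RS.α_nonneg c) 1 1
  have ne : j ≠ c := fun e => by have := d.adj; rw [e, hR.diag] at this; omega
  have k : ∀ t b, Γ.x (R.α c) t * Γ.x (θ - R.α c) b * (Γ.x (R.α c) t)⁻¹ =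
      Γ.x θ (t * b * f) * Γ.x (θ - R.α c) b := fun t b => by
    by_cases ht : t = 0
    · simp [ht, hΓ.x_zero (hR.simple c), hΓ.x_zero d.mem]
    by_cases hb : b = 0
    · simp [hb, hΓ.x_zero (d.mem' hR), hΓ.x_zero d.mem]
    lift t to Kˣ using IsUnit.mk0 t ht
    lift b to Kˣ using IsUnit.mk0 b hb
    obtain ⟨z, hz⟩ : ∃ z : G, ∀ γ ∈ R.Φ, ∀ a, z * Γ.x γ a * z⁻¹ =
        Γ.x γ (((t * b) ^ R.pr γ c * (t * b * b) ^ R.pr γ j : Kˣ) * a) :=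
      ⟨Γ.h c (t * b) * Γ.h j (t * b * b), fun γ m a => by
        rw [Units.val_mul, mul_assoc (_ : K), ← hΓ.hx c _ γ m, ← hΓ.hx j _ γ m]; group⟩
    have e := congrArg (fun y => z * y * z⁻¹) hf
    have h1 := hz _ (hR.simple c) 1
    have h2 := hz _ (d.mem' hR) 1
    have h3 := hz _ d.mem f
    simp only [pr_sub, RS.pr_α, d.pr, d.adj, hR.diag, if_pos, if_neg ne] at h1 h2 h3
    rw [show (((t * b) ^ (2 : ℤ) * (t * b * b) ^ (-1 : ℤ) : Kˣ) : K) * 1 = t by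
      simp [zpow_two]; field_simp] at h1
    rw [show (((t * b) ^ (1 - 2 : ℤ) * (t * b * b) ^ (0 - -1 : ℤ) : Kˣ) : K) * 1 = b by
      simp; field_simp] at h2
    rw [show (((t * b) ^ (1 : ℤ) * (t * b * b) ^ (0 : ℤ) : Kˣ) : K) * f = t * b * f by simp] at h3
    rw [← h1, ← h3, ← h2]
    simp only [← mul_assoc, _root_.mul_inv_rev, inv_inv, inv_mul_cancel_right] at e ⊢
    exact e
  refine ⟨f, fun e => ?_, k⟩
  obtain ⟨a, ha⟩ := hΓ.rep_conj hR (rep_n c) (hR.simple c)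
  obtain ⟨b, hb⟩ := hΓ.rep_conj hR (rep_n c) d.mem
  obtain ⟨b', hb'⟩ := hΓ.rep_conj hR (rep_n c) (d.mem' hR)
  have c1 : ∀ t, Commute (Γ.x (R.α c) t) (Γ.x (θ - R.α c) (b * 1)) := fun t =>
    mul_inv_eq_iff_eq_mul.1 (by rw [k, e, mul_zero, hΓ.x_zero d.mem, one_mul])
  have c2 : Commute (Γ.x (-R.α c) (-1)) (Γ.x (θ - R.α c) (b * 1)) := by
    have := (show Commute (Γ.x (R.α c) ((a⁻¹ : Kˣ) * -1)) (Γ.x θ 1) from mul_inv_eq_iff_eq_mul.1
      (cen d hR hΓ (x_mem (S := {γ | 0 ≤ γ}) (hR.simple c) (RS.α_nonneg c) _) 1)).conj (Γ.n c)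
    rwa [(ha _).1, (hb _).1, hR.sE_α, d.s1 hR, Units.mul_inv_cancel_left] at this
  have c3 := (hb' (b * 1)).1
  rw [mul_inv_eq_iff_eq_mul.2 (show Γ.n c * _ = _ * Γ.n c from
    (((c1 1).mul_left c2).mul_left (c1 1)).eq), d.s2 hR] at c3
  exact d.ne hR (hΓ.x_eq hR (d.mem' hR) d.mem (by simp) c3).symm

theorem lin_U (hu : u ∈ Γ.U) : Lin Γ θ c u := by
  refine hΓ.X_ind (P := Lin Γ θ c) ⟨LinearMap.id, by simp⟩ (fun γ h1 h2 t => ?_)
    (fun _ _ _ _ => Lin.mul) hu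
  have e := cen d hR hΓ (x_mem (S := {γ | 0 ≤ γ}) h2 h1 t)
  by_cases m : γ = R.α c
  · obtain ⟨f, -, hf⟩ := fx d hR hΓ
    refine ⟨LinearMap.id + (t * f) • (LinearMap.inl K K K ∘ₗ LinearMap.snd K K K), fun v => ?_⟩
    rw [conj_ev, e, m, hf, ← mul_assoc, ← hΓ.add _ d.mem, ev]
    simp [mul_right_comm]
  · refine ⟨LinearMap.id, fun v => ?_⟩
    obtain ⟨f, h3, h4⟩ := com d hR hΓ h2 h1 t v.2
    rw [conj_ev, e, h3, h4 m, hΓ.x_zero d.mem, one_mul]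
    rfl

theorem lin_GJ (hJ : ∀ i ∈ J, i ≠ c → R.A c i = 0) (hg : g ∈ Γ.GJ J) : Lin Γ θ c g := by
  obtain ⟨u, hu, n, hn, u', hu', rfl⟩ := hΓ.bruhat0 hR hg
  refine ((lin_U d hR hΓ (UJ_le J hu)).mul ?_).mul (lin_U d hR hΓ (UJ_le J hu'))
  obtain ⟨w, hw, h⟩ := exists_rep hn
  obtain ⟨a, ha⟩ := hΓ.rep_conj hR h d.mem
  obtain ⟨b, hb⟩ := hΓ.rep_conj hR h (d.mem' hR)
  obtain e | e := hR.ind (P := fun w => (w θ = θ ∧ w (θ - R.α c) = θ - R.α c) ∨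
      (w θ = θ - R.α c ∧ w (θ - R.α c) = θ)) (.inl ⟨rfl, rfl⟩) (fun w _ i hi _ ih => by
    rw [RS.mul_app, RS.mul_app]
    by_cases m : i = c
    · rw [m, d.s1 hR, d.s2 hR]
      tauto
    · rwa [hR.sE_eq, hR.sE_eq, pr_sub, d.pr, if_neg m, hJ i hi m, sub_zero, zero_smul, sub_zero,
        sub_zero]) hw
  · exact ⟨((a : K) • LinearMap.id).prodMap ((b : K) • LinearMap.id), fun v => by
      rw [conj_ev, (ha _).1, (hb _).1, e.1, e.2]; rfl⟩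
  · exact ⟨((b : K) • LinearMap.snd K K K).prod ((a : K) • LinearMap.fst K K K), fun v => by
      rw [conj_ev, (ha _).1, (hb _).1, e.1, e.2, swap d hR hΓ]; rfl⟩

/-- The normaliser of the highest root group. -/
theorem mem_PJ_of {p q : K} (hq : q ≠ 0) (h : g * Γ.x θ p * g⁻¹ = Γ.x θ q) :
    g ∈ PJ Γ {i | i ≠ c} := by
  obtain ⟨u, hu, n, w, hn, u', hu', rfl⟩ := hΓ.bruhat hR g
  replace hu' := X_le_U (RS.cl_Inv w).1 hu'
  obtain ⟨a, ha⟩ := hΓ.rep_conj hR hn d.mem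
  rw [← cen d hR hΓ hu q, show u * n * u' * Γ.x θ p * (u * n * u')⁻¹ =
    u * (n * (u' * Γ.x θ p * u'⁻¹) * n⁻¹) * u⁻¹ by group, cen d hR hΓ hu', (ha p).1,
    mul_left_inj, mul_right_inj] at h
  exact mul_mem (mul_mem (U_le_PJ hu) (GJ_le_PJ (hΓ.NJ_le hR (hΓ.rep_NJ hR hn (d.fix hR hn.mem_W
    (hΓ.x_eq hR d.mem (hR.map_mem hn.mem_W d.mem) hq h.symm).symm))))) (U_le_PJ hu')

/-- The nonzero vectors are conjugate to elements of the highest root group. -/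
theorem move {v : K × K} (hv : v ≠ 0) : ∃ y a, a ≠ 0 ∧ ev Γ θ c v = y * Γ.x θ a * y⁻¹ := by
  by_cases h : v.2 = 0
  · exact ⟨1, v.1, fun e => hv (Prod.ext e h), by simp [ev, h, hΓ.x_zero (d.mem' hR)]⟩
  obtain ⟨f, h1, h2⟩ := fx d hR hΓ
  obtain ⟨b, hb⟩ := hΓ.rep_conj hR (rep_n c) d.mem
  refine ⟨Γ.x (R.α c) (v.1 / (v.2 * f)) * Γ.n c, (b⁻¹ : Kˣ) * v.2, by simpa using h, ?_⟩
  rw [ev, show v.1 = v.1 / (v.2 * f) * v.2 * f by field_simp, ← h2,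
    ← Units.mul_inv_cancel_left b v.2, ← d.s1 hR, ← (hb _).1, Units.mul_inv_cancel_left,
    show v.1 / (v.2 * f) * v.2 * f / (v.2 * f) = v.1 / (v.2 * f) by field_simp]
  group

end

variable {k K : Type} [Field k] [Field K] [Algebra k K] {D : Chev} (T : Tw k (D.grp K))
  {θ : D.R.Q} {c j : Fin D.R.r} {J : Set (Fin D.R.r)} (d : Hd D.R θ c j)
  (hp : ∀ π, Dg D.R π → π c = c ∧ pm π θ = θ)
include d hp

/-- A rational long root element gives a rational Heisenberg parabolic subgroup. -/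
theorem heis0 (hs : ∀ σ, ∃ g e π, Std (GG D K) (T.a σ) σ g e π) {y : D.grp K} {a : K} (ha : a ≠ 0)
    (h : y * (GG D K).x θ a * y⁻¹ ∈ T.fix) : FixP T {i | i ≠ c} := ⟨y, fun σ p m => by
  have hR := Chev.R_ok D
  obtain ⟨g, e, π, s⟩ := hs σ
  obtain ⟨p1, p2⟩ := hp π s.1
  have hJ : ∀ i, π i ∈ {i | i ≠ c} ↔ i ∈ {i | i ≠ c} := fun i =>
    not_congr (by conv_lhs => rw [← p1, π.apply_eq_iff_eq])
  obtain ⟨b, hb⟩ := std_x GG_ok s hR θ d.mem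
  have h1 := h σ
  rw [map_mul, map_mul, map_inv, (hb a).1, p2] at h1
  have h2 : y⁻¹ * T.a σ y * g ∈ PJ (GG D K) {i | i ≠ c} := mem_PJ_of d hR GG_ok (p := b * σ a) ha (by
    rw [eq_mul_inv_iff_mul_eq, ← inv_mul_eq_iff_eq_mul] at h1
    rw [← h1]
    group)
  have h3 : g⁻¹ * T.a σ p * g ∈ PJ (GG D K) {i | i ≠ c} :=
    (sup_le (sup_le (fun v hv => GJ_le_PJ (mem_sup_left (std_X GG_ok s hR
      (fun γ e _ => pm_In hJ e) hv))) fun t ht => GJ_le_PJ (mem_sup_right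
        (std_T GG_ok s ht))) fun v hv => U_le_PJ (std_X GG_ok s hR
          (fun γ e _ => pm_nonneg e) hv) : _ ≤ (PJ (GG D K) _).comap
      ((MulAut.conj g).symm.toMonoidHom.comp (T.a σ).toMonoidHom)) m
  simpa [mul_assoc] using mul_mem (mul_mem h2 h3) (inv_mem h2)⟩

theorem top2 [Algebra.IsAlgebraic k K] (hJ : ∀ i ∈ J, i ≠ c → D.R.A c i = 0) (h : Par T J) :
    FixP T {i | i ≠ c} := by
  have hR := Chev.R_ok D
  obtain ⟨g, e, π, h, h1⟩ := h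
  have inj := ev_inj d hR (GG_ok (D := D) (k := K))
  have : ∀ σ, ∃ (M : K × K →ₗ[K] K × K) (p q : K), ∀ v, T.a σ (ev (GG D K) θ c v) =
      ev (GG D K) θ c (M (p * σ v.1, q * σ v.2)) := fun σ => by
    obtain ⟨M, hM⟩ := lin_GJ d hR GG_ok hJ (mem_sup_left (h1 σ).1)
    obtain ⟨p, h2⟩ := std_x GG_ok (h.1 σ) hR θ d.mem
    obtain ⟨q, h3⟩ := std_x GG_ok (h.1 σ) hR _ (d.mem' hR)
    obtain ⟨p1, p2⟩ := hp _ (h.1 σ).1
    refine ⟨M, p, q, fun v => ?_⟩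
    rw [← hM, conj_ev, ev, map_mul, (h2 _).1, (h3 _).1, p2,
      show pm (π σ) (θ - D.R.α c) = pm (π σ) θ - pm (π σ) (D.R.α c) from rfl, p2, pm_α, p1]
  choose M p q hM using this
  have s : Sl ⊤ fun σ (v : K × K) => M σ (p σ * σ v.1, q σ * σ v.2) :=
    ⟨fun σ _ v w => by rw [← map_add]; simp [mul_add], fun σ _ a v => by
      rw [← map_smul]; simp [mul_left_comm], fun σ _ τ _ v => inj (by
      rw [← hM, ← hM, ← hM, map_mul, MulAut.mul_apply]), fun v =>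
      (tw_sm T (ev (GG D K) θ c v)).imp fun σ _ m => inj ((hM σ v).symm.trans m)⟩
  obtain ⟨v, -, h2, h3⟩ := s.exists_ne ⊤ (fun _ _ _ _ => trivial) top_ne_bot
  obtain ⟨y, a, h4, h5⟩ := move d hR (GG_ok (D := D) (k := K)) h2
  exact heis0 T d hp (fun σ => ⟨_, _, _, h.1 σ⟩) h4 (h5 ▸ fun σ => (hM σ v).trans
    (congrArg _ (h3 σ trivial)))

end Vale.Agent.P011UF9
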