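import Vale.Agent.P011UF9.Top
import Vale.Agent.P011UF.IF3

/-!
The central node of the isotropic trialitarian forms is distinguished.
-/

set_option autoImplicit false
set_option linter.all false

namespace Vale.Agent.P011UF9

open Vale.Agent.P011L Vale.Agent.P183CH Vale.Agent.P011U Vale.Agent.P011UF

theorem hd4 {R : RS} (hR : R.Ok) {e : Fin R.r ≃ Fin 4} (he : Ty R (CartanMatrix.D 4) e) :
    Hd R (rt e ![1, 2, 1, 1]) (e.symm 1) (e.symm 0) := by
  have b : rt e ![1, 2, 1, 1] - R.α (e.symm 1) = rt e ![1, 1, 1, 1] := by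
    rw [rt_α]
    exact congrArg (rt e) (show ![1, 2, 1, 1] - Pi.single 1 1 = (![1, 1, 1, 1] : Fin 4 → ℤ) by decide)
  refine ⟨mem_t he hR, fun i => ?_, b ▸ rt_nonneg e (Pi.le_def.2 (by decide)), fun γ m h => ?_, by
    rw [A_eq he]; decide⟩
  · obtain ⟨a, rfl⟩ := e.symm.surjective i
    rw [rt_pr he]
    simp only [e.symm.apply_eq_iff_eq]
    revert a
    decide
  · rw [b] at h ⊢
    have k : ∀ a, (![1, 1, 1, 1] : Fin 4 → ℤ) a ≤ γ (e.symm a) := fun a => by
      simpa [rt] using h (e.symm a)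
    have k0 : 1 ≤ γ (e.symm 0) := k 0
    have k2 : 1 ≤ γ (e.symm 2) := k 2
    have k3 : 1 ≤ γ (e.symm 3) := k 3
    rw [rt_eq e γ] at m ⊢
    exact ((top he hR m (.inr (by omega))).imp (congrArg _) (congrArg _)).symm

theorem heis : HEIS := fun k K _ _ _ _ _ D _ T e he J hJ h => by
  have := top2 T (hd4 (Chev.R_ok D) he) (fun π m => ⟨fix_c he m, pm_rt he m 1 2⟩)
    (fun i m c => absurd (hJ m) c) h
  rwa [show {i | i ≠ e.symm 1} = lv e from Set.ext fun i => not_congr e.eq_symm_apply] at this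

end Vale.Agent.P011UF9
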